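import Vale.Agent.P172.R2.H983.Dir

/-!
# P172: the Morse lemma in hyperbolic 3-space
-/

namespace Vale.Agent.P172.H983

open Real P198H P198H.H3 Set Vale.Agent.P198.H372 Vale.Agent.P172

theorem sinh_lower {D : ℝ} (hD : 0 ≤ D) : D ^ 2 / 4 ≤ sinh D := by
  have h1 := Real.quadratic_le_exp_of_nonneg hD
  have h2 : exp (-D) ≤ 1 := exp_le_one_iff.2 (by linarith)
  rw [sinh_eq]
  nlinarith

theorem exists_big (L : ℝ) (hL : 0 ≤ L) : ∃ D₀ : ℝ, 1 ≤ D₀ ∧ ∀ D, D₀ < D →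
    1 + (6 * L * D + L) * sinh (L / 2) < sinh D := by
  have hs : 0 ≤ sinh (L / 2) := sinh_nonneg_iff.2 (by positivity)
  set κ := L * sinh (L / 2) with hκ
  have hκ0 : 0 ≤ κ := by positivity
  refine ⟨4 * (1 + 7 * κ) + 1, by linarith, fun D hD => ?_⟩
  have hD1 : 1 < D := by linarith
  have h1 := sinh_lower (D := D) (by linarith)
  have h2 : 1 + (6 * L * D + L) * sinh (L / 2) = 1 + 6 * κ * D + κ := by rw [hκ]; ring
  have h3 : κ ≤ κ * D := by nlinarith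
  have h4 : D * (4 * (1 + 7 * κ)) < D * D := by
    have : 4 * (1 + 7 * κ) < D := by linarith
    nlinarith
  nlinarith

theorem exists_side {γ : ℝ → H3} {x y : H3} (hγ : IsGeodesic γ x y) {a : ℕ → H3} {N : ℕ}
    {s₀ D : ℝ} (hs₀ : s₀ ∈ Icc 0 (dist x y)) (hD : 0 < D)
    (hall : ∀ i ≤ N, D ≤ dist (γ s₀) (a i))
    (hclose : ∀ s ∈ Icc 0 (dist x y), ∃ i ≤ N, dist (γ s) (a i) ≤ D)
    {s₁ : ℝ} (hs₁ : s₁ ∈ Icc 0 (dist x y)) (h : |s₁ - s₀| = 2 * D ∨ ∃ i ≤ N, γ s₁ = a i) :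
    ∃ i ≤ N, dist (γ s₁) (a i) ≤ D ∧ ‖U (γ s₀) (γ s₁) - U (γ s₀) (a i)‖ ≤ 1 / sinh D := by
  have h0 : 0 < sinh D := sinh_pos_iff.2 hD
  rcases h with h | ⟨i, hi, h⟩
  · obtain ⟨i, hi, h1⟩ := hclose s₁ hs₁
    refine ⟨i, hi, h1, chord_far hD ?_ (hall i hi) h1⟩
    rw [hγ.2.2 s₀ hs₀ s₁ hs₁, abs_sub_comm, h]
  · refine ⟨i, hi, ?_, ?_⟩
    · rw [h, dist_self]; exact hD.le
    · rw [h, sub_self, norm_zero]; positivity

/-- **The Morse lemma**: a geodesic of hyperbolic 3-space is near each quasi-geodesic with the same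
end points. -/
theorem morse (L : ℝ) (hL : 0 ≤ L) : ∃ D₀ : ℝ, 0 ≤ D₀ ∧ ∀ (a : ℕ → H3) (N : ℕ),
    (∀ i < N, dist (a i) (a (i + 1)) ≤ L) →
    (∀ i j : ℕ, i ≤ j → j ≤ N → (j : ℝ) - i ≤ L * dist (a i) (a j) + L) →
    ∀ γ : ℝ → H3, IsGeodesic γ (a 0) (a N) → ∀ s ∈ Icc 0 (dist (a 0) (a N)),
      ∃ i ≤ N, dist (γ s) (a i) ≤ D₀ := by
  obtain ⟨D₀, hD₀, hbig⟩ := exists_big L hL
  refine ⟨D₀, by linarith, fun a N hstep hqi γ hγ s hs => ?_⟩
  by_contra hcon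
  push Not at hcon
  have hne : (Finset.range (N + 1)).Nonempty := ⟨0, by simp⟩
  set f : ℝ → ℝ := fun s => (Finset.range (N + 1)).inf' hne fun i => dist (γ s) (a i) with hf
  have hfc : ContinuousOn f (Icc 0 (dist (a 0) (a N))) := by
    refine ContinuousOn.finset_inf'_apply hne fun i _ => ?_
    exact continuous_dist.comp_continuousOn ((continuousOn_geod hγ).prodMk continuousOn_const)
  obtain ⟨s₀, hs₀, hmax⟩ := isCompact_Icc.exists_isMaxOn (nonempty_Icc.2 dist_nonneg) hfc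
  set D := f s₀ with hD
  have hDD : D₀ < D := by
    refine lt_of_lt_of_le ?_ (hmax hs)
    rw [hf]
    simp only
    rw [Finset.lt_inf'_iff]
    intro i hi
    exact hcon i (by simpa [Nat.lt_succ_iff] using hi)
  have hD0 : 0 < D := by linarith
  have hall : ∀ i ≤ N, D ≤ dist (γ s₀) (a i) := fun i hi =>
    Finset.inf'_le (f := fun i => dist (γ s₀) (a i)) (Finset.mem_range.2 (by omega))
  have hclose : ∀ s ∈ Icc 0 (dist (a 0) (a N)), ∃ i ≤ N, dist (γ s) (a i) ≤ D := by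
    intro s hs
    obtain ⟨i, hi, h1⟩ := Finset.exists_mem_eq_inf' hne fun i => dist (γ s) (a i)
    refine ⟨i, by simpa [Nat.lt_succ_iff] using hi, ?_⟩
    rw [← h1]
    exact hmax hs
  set ℓ := dist (a 0) (a N) with hℓ
  have hDs : D ≤ s₀ := by
    have h1 := hall 0 (Nat.zero_le _)
    rw [dist_comm, IsGeodesic.left hγ hs₀] at h1
    exact h1
  have hDl : D ≤ ℓ - s₀ := by
    have h1 := hall N le_rfl
    rw [IsGeodesic.right hγ hs₀] at h1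
    exact h1
  -- the two sides
  have hL1 : ∃ s₁ ∈ Icc 0 ℓ, s₁ < s₀ ∧ s₀ - s₁ ≤ 2 * D ∧
      (|s₁ - s₀| = 2 * D ∨ ∃ i ≤ N, γ s₁ = a i) := by
    rcases le_total s₀ (2 * D) with h | h
    · exact ⟨0, ⟨le_rfl, dist_nonneg⟩, by linarith, by linarith,
        Or.inr ⟨0, Nat.zero_le _, hγ.1⟩⟩
    · refine ⟨s₀ - 2 * D, ⟨by linarith, by linarith [hs₀.2]⟩, by linarith, by linarith,
        Or.inl ?_⟩
      rw [show s₀ - 2 * D - s₀ = -(2 * D) by ring, abs_neg, abs_of_pos (by linarith)]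
  have hL2 : ∃ s₂ ∈ Icc 0 ℓ, s₀ < s₂ ∧ s₂ - s₀ ≤ 2 * D ∧
      (|s₂ - s₀| = 2 * D ∨ ∃ i ≤ N, γ s₂ = a i) := by
    rcases le_total ℓ (s₀ + 2 * D) with h | h
    · exact ⟨ℓ, ⟨dist_nonneg, le_rfl⟩, by linarith, by linarith,
        Or.inr ⟨N, le_rfl, hγ.2.1⟩⟩
    · refine ⟨s₀ + 2 * D, ⟨by linarith [hs₀.1], by linarith⟩, by linarith, by linarith,
        Or.inl ?_⟩
      rw [show s₀ + 2 * D - s₀ = 2 * D by ring, abs_of_pos (by linarith)]
  obtain ⟨s₁, m1, l1, u1, e1⟩ := hL1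
  obtain ⟨s₂, m2, l2, u2, e2⟩ := hL2
  obtain ⟨i, hi, i1, i2⟩ := exists_side hγ hs₀ hD0 hall hclose m1 e1
  obtain ⟨j, hj, j1, j2⟩ := exists_side hγ hs₀ hD0 hall hclose m2 e2
  have d1 : dist (γ s₀) (γ s₁) = s₀ - s₁ := by
    rw [hγ.2.2 s₀ hs₀ s₁ m1, abs_of_pos (by linarith)]
  have d2 : dist (γ s₀) (γ s₂) = s₂ - s₀ := by
    rw [hγ.2.2 s₀ hs₀ s₂ m2, abs_sub_comm, abs_of_pos (by linarith)]
  have d3 : dist (γ s₁) (γ s₂) = s₂ - s₁ := by
    rw [hγ.2.2 s₁ m1 s₂ m2, abs_sub_comm, abs_of_pos (by linarith)]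
  have k1 : ‖U (γ s₀) (γ s₁) - U (γ s₀) (γ s₂)‖ = 2 :=
    chord_between (by rw [d1]; linarith) (by rw [d2]; linarith) (by rw [d1, d2, d3]; ring)
  have h0 : 0 < sinh D := sinh_pos_iff.2 hD0
  have hsL : 0 ≤ sinh (L / 2) := sinh_nonneg_iff.2 (by positivity)
  have hpath : ∀ i j : ℕ, i ≤ j → j ≤ N → dist (a i) (a j) ≤ 6 * D →
      ‖U (γ s₀) (a i) - U (γ s₀) (a j)‖ ≤ (6 * L * D + L) * (2 * sinh (L / 2) / sinh D) := by
    intro i j hij hj h6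
    obtain ⟨n, rfl⟩ := Nat.exists_eq_add_of_le hij
    have h1 := chord_path (p := γ s₀) (a := a) (D := D) (L := L) hD0 (i := i) (n := n)
      (fun k hk => hstep _ (by omega)) (fun k hk => hall _ (by omega))
    have h2 := hqi i (i + n) hij hj
    push_cast at h2
    have h3 : (n : ℝ) ≤ 6 * L * D + L := by nlinarith
    refine h1.trans ?_
    gcongr
  have h6 : dist (a i) (a j) ≤ 6 * D := by
    have := dist_triangle4 (a i) (γ s₁) (γ s₂) (a j)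
    rw [dist_comm (a i) (γ s₁), d3] at this
    linarith
  have k2 : ‖U (γ s₀) (a i) - U (γ s₀) (a j)‖ ≤ (6 * L * D + L) * (2 * sinh (L / 2) / sinh D) := by
    rcases le_total i j with h | h
    · exact hpath i j h hj h6
    · rw [norm_sub_rev]
      exact hpath j i h hi (by rw [dist_comm]; exact h6)
  have k3 := norm_sub_le_norm_sub_add_norm_sub (U (γ s₀) (γ s₁)) (U (γ s₀) (a i))
    (U (γ s₀) (γ s₂))
  have k4 := norm_sub_le_norm_sub_add_norm_sub (U (γ s₀) (a i)) (U (γ s₀) (a j))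
    (U (γ s₀) (γ s₂))
  rw [norm_sub_rev (U (γ s₀) (a j))] at k4
  have k5 : 2 ≤ 1 / sinh D + (6 * L * D + L) * (2 * sinh (L / 2) / sinh D) + 1 / sinh D := by
    linarith
  have k6 : 2 * sinh D ≤ 2 + (6 * L * D + L) * (2 * sinh (L / 2)) := by
    have := mul_le_mul_of_nonneg_right k5 h0.le
    have e : (1 / sinh D + (6 * L * D + L) * (2 * sinh (L / 2) / sinh D) + 1 / sinh D) * sinh D =
        2 + (6 * L * D + L) * (2 * sinh (L / 2)) := by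
      field_simp
      ring
    rw [e] at this
    exact this
  have k7 := hbig D hDD
  linarith

end Vale.Agent.P172.H983
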