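import Vale.Agent.P172.R2.H983.Hull
import Vale.Agent.P172.R2.H983.Morse
import Vale.Agent.P172.H372.Defs
import Vale.Agent.P198.H372.QI

/-!
# P172: groups acting on hyperbolic 3-space with quasiconvex orbits
-/

namespace Vale.Agent.P172.H983

open Real P198H P198H.H3 Set Vale.Agent.P198.H372 Vale.Agent.P172 Vale.Agent.P198.H

/-- a proper action on hyperbolic 3-space with a quasiconvex orbit gives a geometric action on a
closed convex subset -/
theorem core {H : Type} [Group H] (σ : H →* (H3 ≃ᵢ H3)) (x : H3)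
    (hp : ∀ K : Set H3, IsCompact K → {h : H | ((σ h) '' K ∩ K).Nonempty}.Finite)
    {K : ℝ} (hK : 0 ≤ K) (hY : QC (range fun h => σ h x) K) :
    ∃ (X : Type) (_ : MetricSpace X) (_ : MulAction H X), Nonempty X ∧ ProperSpace X ∧
      IsIsometricSMul H X ∧ IsCAT0 X ∧ Vale.Agent.P172.H372.IsCATNegOne X ∧
      Vale.Agent.P172.H372.IsGeometric H X := by
  set Y := range fun h => σ h x with hYd
  have hxY : x ∈ Y := ⟨1, rho_one x⟩
  have hinv : ∀ h, ∀ y ∈ Y, σ h y ∈ Y := by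
    rintro h _ ⟨k, rfl⟩
    exact ⟨h * k, rho_mul h k x⟩
  let _ : MulAction H (hull Y) :=
    { smul := fun h q => ⟨σ h q, hull_map (σ h) (hinv h) q.2⟩
      one_smul := fun q => Subtype.ext (rho_one (q : H3))
      mul_smul := fun g k q => Subtype.ext (rho_mul g k (q : H3)) }
  have hsm : ∀ (h : H) (q : hull Y), ((h • q : hull Y) : H3) = σ h q := fun _ _ => rfl
  have hiso : IsIsometricSMul H (hull Y) :=
    ⟨fun h => Isometry.of_dist_eq fun a b => (σ h).dist_eq a b⟩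
  have hprop : ProperSpace (hull Y) := ProperSpace.of_isClosed (isClosed_hull Y)
  have hconv : IsConv (hull Y) := fun a ha b hb γ hγ s hs => hull_convex Y ha hb hγ hs
  let x₀ : hull Y := ⟨x, subset_hull Y hxY⟩
  refine ⟨hull Y, inferInstance, inferInstance, ⟨x₀⟩, hprop, hiso, isCAT0_sub hconv,
    isCATNegOne_sub hconv, ?_, ?_⟩
  · intro C hC
    refine (hp (Subtype.val '' C) (hC.image continuous_subtype_val)).subset ?_
    rintro h ⟨_, ⟨q, hq, rfl⟩, hq'⟩
    exact ⟨σ h q, ⟨_, ⟨q, hq, rfl⟩, rfl⟩, ⟨_, hq', rfl⟩⟩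
  · refine ⟨Metric.closedBall x₀ (2 * K + 5), isCompact_closedBall _ _, ?_⟩
    rw [eq_univ_iff_forall]
    intro q
    obtain ⟨_, ⟨h, rfl⟩, hd⟩ := hull_bounded hK hY ⟨x, hxY⟩ q.2
    refine mem_iUnion.2 ⟨h, h⁻¹ • q, ?_, smul_inv_smul h q⟩
    rw [Metric.mem_closedBall, Subtype.dist_eq, hsm]
    have h1 : dist (σ h⁻¹ (q : H3)) x = dist (q : H3) (σ h x) := by
      rw [← (σ h).dist_eq, ← rho_mul, mul_inv_cancel, rho_one]
    show dist (σ h⁻¹ (q : H3)) x ≤ _
    rw [h1]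
    exact hd

/-- orbits along which the word metric is undistorted are quasiconvex -/
theorem qc_of_qi {H : Type} [Group H] {T : Finset H} (hT : Subgroup.closure (T : Set H) = ⊤)
    (σ : H →* (H3 ≃ᵢ H3)) (x : H3) {L : ℝ}
    (hL : ∀ h k, (wdist T h k : ℝ) ≤ L * dist (σ h x) (σ k x) + L) :
    ∃ K : ℝ, 0 ≤ K ∧ QC (range fun h => σ h x) K := by
  obtain ⟨L₁, hL₁, h1⟩ := exists_lip (ρ := σ) hT x
  set M := max L L₁ with hM
  have hM0 : 0 ≤ M := hL₁.trans (le_max_right _ _)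
  obtain ⟨D, hD, hm⟩ := morse M hM0
  refine ⟨D, hD, ?_⟩
  rintro _ ⟨h, rfl⟩ _ ⟨k, rfl⟩ γ hγ s hs
  obtain ⟨a, ha⟩ := exists_geod hT h k
  have e0 : a 0 = h := ha.start
  have e1 : a (wdist T h k) = k := ha.stop
  obtain ⟨i, -, hi⟩ := hm (fun i => σ (a i) x) (wdist T h k) (fun i hi => by
      refine (h1 _ _).trans ?_
      rw [ha.geod i (i + 1) (by omega) (by omega)]
      have : ((i + 1 - i : ℕ) : ℝ) = 1 := by norm_num
      rw [this, mul_one]
      exact le_max_right _ _) (fun i j hij hj => by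
      have h2 := hL (a i) (a j)
      rw [ha.geod i j hij hj, Nat.cast_sub hij] at h2
      have h3 : L * dist (σ (a i) x) (σ (a j) x) ≤ M * dist (σ (a i) x) (σ (a j) x) :=
        mul_le_mul_of_nonneg_right (le_max_left _ _) dist_nonneg
      have h4 : L ≤ M := le_max_left _ _
      linarith) γ (by simpa only [e0, e1] using hγ) s (by simpa only [e0, e1] using hs)
  exact ⟨_, ⟨a i, rfl⟩, hi⟩

/-- subgroups whose image is quasiconvex in a group quasi-isometric to the space -/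
theorem qc_of_qc {G H : Type} [Group G] [Group H] {S : Finset G}
    (hS : Subgroup.closure (S : Set G) = ⊤) (ρ : G →* (H3 ≃ᵢ H3)) (x : H3) {L : ℝ}
    (hL : ∀ g h, (wdist S g h : ℝ) ≤ L * dist (ρ g x) (ρ h x) + L) (φ : H →* G) {K : ℝ}
    (hK : 0 ≤ K)
    (hφ : ∀ (h k : H) (a : ℕ → G) (n : ℕ), IsGeod S (φ h) (φ k) a n → ∀ i ≤ n,
      ∃ l : H, (wdist S (a i) (φ l) : ℝ) ≤ K) :
    ∃ K : ℝ, 0 ≤ K ∧ QC (range fun h => (ρ.comp φ) h x) K := by
  obtain ⟨L₁, hL₁, h1⟩ := exists_lip (ρ := ρ) hS x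
  set M := max L L₁ with hM
  have hM0 : 0 ≤ M := hL₁.trans (le_max_right _ _)
  obtain ⟨D, hD, hm⟩ := morse M hM0
  refine ⟨D + L₁ * K, by positivity, ?_⟩
  rintro _ ⟨h, rfl⟩ _ ⟨k, rfl⟩ γ hγ s hs
  obtain ⟨a, ha⟩ := exists_geod hS (φ h) (φ k)
  have e0 : a 0 = φ h := ha.start
  have e1 : a (wdist S (φ h) (φ k)) = φ k := ha.stop
  have ec : ∀ l, (ρ.comp φ) l = ρ (φ l) := fun _ => rfl
  simp only [ec] at hγ hs
  obtain ⟨i, hin, hi⟩ := hm (fun i => ρ (a i) x) (wdist S (φ h) (φ k)) (fun i hi => by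
      refine (h1 _ _).trans ?_
      rw [ha.geod i (i + 1) (by omega) (by omega)]
      have : ((i + 1 - i : ℕ) : ℝ) = 1 := by norm_num
      rw [this, mul_one]
      exact le_max_right _ _) (fun i j hij hj => by
      have h2 := hL (a i) (a j)
      rw [ha.geod i j hij hj, Nat.cast_sub hij] at h2
      have h3 : L * dist (ρ (a i) x) (ρ (a j) x) ≤ M * dist (ρ (a i) x) (ρ (a j) x) :=
        mul_le_mul_of_nonneg_right (le_max_left _ _) dist_nonneg
      have h4 : L ≤ M := le_max_left _ _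
      linarith) γ (by simpa only [e0, e1] using hγ) s (by simpa only [e0, e1] using hs)
  obtain ⟨l, hl⟩ := hφ h k a _ ha i hin
  refine ⟨_, ⟨l, rfl⟩, ?_⟩
  have h2 := h1 (a i) (φ l)
  have h3 : L₁ * (wdist S (a i) (φ l) : ℝ) ≤ L₁ * K := mul_le_mul_of_nonneg_left hl hL₁
  have h4 := dist_triangle (γ s) (ρ (a i) x) (ρ (φ l) x)
  show dist (γ s) (ρ (φ l) x) ≤ _
  linarith

end Vale.Agent.P172.H983
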