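import Mathlib

/-!
# P172: quasiconvex subsets of graphs and virtual retracts (notions of the statement)
-/

namespace Vale.Agent.P172.H983

/-- there is a `K` such that every vertex of every geodesic of the graph between two points of `A`
is at distance at most `K` from a point of `A` -/
def IsQuasiconvex {V : Type} (Γ : SimpleGraph V) (A : Set V) : Prop :=
  ∃ K : ℕ, ∀ (a b : V) (p : Γ.Walk a b), a ∈ A → b ∈ A → p.length = Γ.dist a b →
    ∀ v ∈ p.support, ∃ w ∈ A, Γ.dist v w ≤ K

/-- `H` embeds as a retract in a subgroup of finite index of `G` -/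
def IsVirtualRetract (H G : Type) [Group H] [Group G] : Prop :=
  ∃ (G₀ : Subgroup G) (i : H →* G₀) (r : G₀ →* H), G₀.FiniteIndex ∧ ∀ h, r (i h) = h

/-- there is a homomorphism from `H` to `G` with finite kernel and quasiconvex image, for some
finite generating set of `G` -/
def IsQuasiconvexIn (H G : Type) [Group H] [Group G] : Prop :=
  ∃ (S : Finset G) (φ : H →* G), Subgroup.closure (S : Set G) = ⊤ ∧ Finite φ.ker ∧
    IsQuasiconvex (SimpleGraph.mulCayley (S : Set G)) (Set.range φ)

/-- there is a homomorphism from `H` to `G` that is a quasi-isometric embedding for the word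
metrics of some finite generating sets (the upper bound holds for every homomorphism) -/
def IsUndistortedIn (H G : Type) [Group H] [Group G] : Prop :=
  ∃ (T : Finset H) (S : Finset G) (φ : H →* G) (L : ℝ), Subgroup.closure (T : Set H) = ⊤ ∧
    Subgroup.closure (S : Set G) = ⊤ ∧ ∀ h k : H,
      ((SimpleGraph.mulCayley (T : Set H)).dist h k : ℝ) ≤
        L * (SimpleGraph.mulCayley (S : Set G)).dist (φ h) (φ k) + L

end Vale.Agent.P172.H983
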