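import Vale.Agent.P198.H372.CAT

/-!
# P172: directions seen from a point of hyperbolic 3-space
-/

namespace Vale.Agent.P172.H983

open Real P198H P198H.H3 Set Vale.Agent.P198.H372 Vale.Agent.P172

/-- the (unnormalised) direction of `q` seen from `p` -/
noncomputable def W (p q : H3) : EuclideanSpace ℝ (Fin 3) :=
  WithLp.toLp 2 ![(q.z.re - p.z.re) / q.t, (q.z.im - p.z.im) / q.t,
    ((q.z.re - p.z.re) ^ 2 + (q.z.im - p.z.im) ^ 2 + q.t ^ 2 - p.t ^ 2) / (2 * q.t * p.t)]

theorem cosh_eq' (p q : H3) : cosh (dist p q) =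
    ((q.z.re - p.z.re) ^ 2 + (q.z.im - p.z.im) ^ 2 + q.t ^ 2 + p.t ^ 2) / (2 * q.t * p.t) := by
  have hp := p.t_pos
  have hq := q.t_pos
  rw [cosh_dist, ← Complex.normSq_eq_norm_sq, Complex.normSq_apply, Complex.sub_re, Complex.sub_im]
  field_simp
  ring

theorem inner_W (p a b : H3) :
    inner ℝ (W p a) (W p b) = cosh (dist p a) * cosh (dist p b) - cosh (dist a b) := by
  have hp := p.t_pos
  have ha := a.t_pos
  have hb := b.t_pos
  rw [cosh_eq', cosh_eq', cosh_eq' a b, W, W, PiLp.inner_apply, Fin.sum_univ_three]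
  simp only [Matrix.cons_val_zero, Matrix.cons_val_one, Matrix.cons_val, RCLike.inner_apply,
    conj_trivial]
  field_simp
  ring

theorem norm_W_sq (p a : H3) : ‖W p a‖ ^ 2 = sinh (dist p a) ^ 2 := by
  rw [← real_inner_self_eq_norm_sq, inner_W, dist_self, cosh_zero, sinh_sq]
  ring

/-- the direction of `q` seen from `p` -/
noncomputable def U (p q : H3) : EuclideanSpace ℝ (Fin 3) := (sinh (dist p q))⁻¹ • W p q

theorem chord_sq {p a b : H3} (ha : 0 < dist p a) (hb : 0 < dist p b) :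
    ‖U p a - U p b‖ ^ 2 * (sinh (dist p a) * sinh (dist p b)) =
      2 * (cosh (dist a b) - cosh (dist p a - dist p b)) := by
  have h1 : 0 < sinh (dist p a) := sinh_pos_iff.2 ha
  have h2 : 0 < sinh (dist p b) := sinh_pos_iff.2 hb
  have h3 : ‖U p a‖ ^ 2 = 1 := by
    rw [U, norm_smul, mul_pow, norm_W_sq, norm_inv, norm_of_nonneg h1.le]
    field_simp
  have h4 : ‖U p b‖ ^ 2 = 1 := by
    rw [U, norm_smul, mul_pow, norm_W_sq, norm_inv, norm_of_nonneg h2.le]
    field_simp
  rw [norm_sub_sq_real, h3, h4, U, U, inner_smul_left, inner_smul_right, inner_W, cosh_sub]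
  simp only [conj_trivial]
  field_simp
  ring

/-- the direction changes slowly far from `p` -/
theorem chord_le {p a b : H3} {R : ℝ} (hR : 0 < R) (ha : R ≤ dist p a) (hb : R ≤ dist p b) :
    ‖U p a - U p b‖ ≤ 2 * sinh (dist a b / 2) / sinh R := by
  have h0 : 0 < sinh R := sinh_pos_iff.2 hR
  have h1 : sinh R ≤ sinh (dist p a) := sinh_le_sinh.2 ha
  have h2 : sinh R ≤ sinh (dist p b) := sinh_le_sinh.2 hb
  have h3 := chord_sq (hR.trans_le ha) (hR.trans_le hb)
  have h4 : cosh (dist a b) = 1 + 2 * sinh (dist a b / 2) ^ 2 := by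
    have h := cosh_two_mul (dist a b / 2)
    rw [mul_div_cancel₀ _ (two_ne_zero : (2 : ℝ) ≠ 0)] at h
    rw [h, cosh_sq]; ring
  have h5 := one_le_cosh (dist p a - dist p b)
  have h6 : 0 ≤ sinh (dist a b / 2) := sinh_nonneg_iff.2 (by positivity)
  rw [le_div_iff₀ h0]
  refine abs_le_of_sq_le_sq' ?_ (by positivity) |>.2
  have h7 : sinh R * sinh R ≤ sinh (dist p a) * sinh (dist p b) :=
    mul_le_mul h1 h2 h0.le (h0.le.trans h1)
  have h8 : ‖U p a - U p b‖ ^ 2 * (sinh R * sinh R) ≤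
      ‖U p a - U p b‖ ^ 2 * (sinh (dist p a) * sinh (dist p b)) :=
    mul_le_mul_of_nonneg_left h7 (sq_nonneg _)
  nlinarith

/-- opposite directions -/
theorem chord_between {p y z : H3} (hy : 0 < dist p y) (hz : 0 < dist p z)
    (h : dist y z = dist p y + dist p z) : ‖U p y - U p z‖ = 2 := by
  have h3 := chord_sq hy hz
  have h1 : 0 < sinh (dist p y) := sinh_pos_iff.2 hy
  have h2 : 0 < sinh (dist p z) := sinh_pos_iff.2 hz
  rw [h, cosh_add, cosh_sub] at h3
  have h4 : ‖U p y - U p z‖ ^ 2 = 4 := by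
    have h5 : 0 < sinh (dist p y) * sinh (dist p z) := mul_pos h1 h2
    have h6 : ‖U p y - U p z‖ ^ 2 * (sinh (dist p y) * sinh (dist p z)) =
        4 * (sinh (dist p y) * sinh (dist p z)) := by rw [h3]; ring
    exact mul_right_cancel₀ h5.ne' h6
  nlinarith [norm_nonneg (U p y - U p z)]

/-- the direction changes little between `y`, twice as far, and a point at distance `≤ D` -/
theorem chord_far {p y a : H3} {D : ℝ} (hD : 0 < D) (hy : dist p y = 2 * D) (ha : D ≤ dist p a)
    (hya : dist y a ≤ D) : ‖U p y - U p a‖ ≤ 1 / sinh D := by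
  have h0 : 0 < sinh D := sinh_pos_iff.2 hD
  have h2 : sinh D ≤ sinh (dist p a) := sinh_le_sinh.2 ha
  have h3 := chord_sq (p := p) (a := y) (b := a) (by rw [hy]; linarith) (by linarith)
  have h4 : cosh (dist y a) ≤ cosh D := by
    rw [cosh_le_cosh, abs_of_nonneg dist_nonneg, abs_of_nonneg hD.le]; exact hya
  have h5 := cosh_pos (dist p y - dist p a)
  rw [hy, sinh_two_mul] at h3
  have hc := cosh_pos D
  rw [le_div_iff₀ h0]
  refine abs_le_of_sq_le_sq' ?_ zero_le_one |>.2
  have h8 : ‖U p y - U p a‖ ^ 2 * (2 * sinh D * cosh D * sinh D) ≤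
      ‖U p y - U p a‖ ^ 2 * (2 * sinh D * cosh D * sinh (dist p a)) := by gcongr
  have h9 : ‖U p y - U p a‖ ^ 2 * (2 * sinh D * cosh D * sinh D) ≤ 2 * cosh D := by
    rw [hy] at h5
    linarith
  have h10 : (‖U p y - U p a‖ * sinh D) ^ 2 * (2 * cosh D) ≤ 1 ^ 2 * (2 * cosh D) := by
    nlinarith
  exact le_of_mul_le_mul_right h10 (by positivity)

/-- directions along a path outside the ball of radius `D` -/
theorem chord_path {p : H3} {a : ℕ → H3} {D L : ℝ} (hD : 0 < D) {i n : ℕ}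
    (h1 : ∀ k < n, dist (a (i + k)) (a (i + k + 1)) ≤ L)
    (h2 : ∀ k ≤ n, D ≤ dist p (a (i + k))) :
    ‖U p (a i) - U p (a (i + n))‖ ≤ n * (2 * sinh (L / 2) / sinh D) := by
  have h0 : 0 < sinh D := sinh_pos_iff.2 hD
  induction n with
  | zero => simp
  | succ n ih =>
    have h3 := ih (fun k hk => h1 k (by omega)) (fun k hk => h2 k (by omega))
    have h4 := chord_le hD (h2 n (by omega)) (h2 (n + 1) le_rfl)
    have h5 := h1 n (by omega)
    rw [← add_assoc] at h4
    have h6 : 2 * sinh (dist (a (i + n)) (a (i + n + 1)) / 2) / sinh D ≤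
        2 * sinh (L / 2) / sinh D := by
      have : sinh (dist (a (i + n)) (a (i + n + 1)) / 2) ≤ sinh (L / 2) :=
        sinh_le_sinh.2 (by linarith)
      gcongr
    have h7 := norm_sub_le_norm_sub_add_norm_sub (U p (a i)) (U p (a (i + n)))
      (U p (a (i + n + 1)))
    rw [← add_assoc]
    push_cast
    linarith

end Vale.Agent.P172.H983
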