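import Vale.Agent.P198.H372.CATm1

/-!
# P172: convex hulls of quasiconvex sets in hyperbolic 3-space
-/

namespace Vale.Agent.P172.H983

open Real P198H P198H.H3 Set Vale.Agent.P198.H372 Vale.Agent.P172

/-- geodesics with end points in `Y` stay in the `K`-neighbourhood of `Y` -/
def QC (Y : Set H3) (K : ℝ) : Prop :=
  ∀ x ∈ Y, ∀ y ∈ Y, ∀ γ : ℝ → H3, IsGeodesic γ x y → ∀ s ∈ Icc 0 (dist x y),
    ∃ z ∈ Y, dist (γ s) z ≤ K

theorem sinh_sub_le {a s : ℝ} (hs : 0 ≤ s) : sinh (a - s) ≤ exp (-s) * sinh a := by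
  rw [Real.sinh_eq, Real.sinh_eq]
  have h1 : exp (a - s) = exp (-s) * exp a := by rw [← exp_add]; ring_nf
  have h2 : exp (-s) * exp (-a) ≤ exp (-(a - s)) := by
    rw [← exp_add]
    exact exp_le_exp.2 (by linarith)
  rw [h1]
  nlinarith

theorem cosh_add_le {A c : ℝ} (hc : 0 ≤ c) : cosh (A + c) ≤ exp c * cosh A := by
  rw [Real.cosh_eq, Real.cosh_eq]
  have h1 : exp (A + c) = exp c * exp A := by rw [← exp_add]; ring_nf
  have h2 : exp (-(A + c)) ≤ exp c * exp (-A) := by
    rw [← exp_add]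
    exact exp_le_exp.2 (by linarith)
  rw [h1]
  nlinarith

/-- a point far from `Y` is farther from each point of `Y` than some point `u` of `Y` -/
theorem exists_sep {Y : Set H3} {K : ℝ} (hK : 0 ≤ K) (hY : QC Y K) (hne : Y.Nonempty) {q : H3}
    (hq : ∀ y ∈ Y, 2 * K + 5 < dist q y) : ∃ u ∈ Y, ∀ y ∈ Y, dist y u ≤ dist y q := by
  set m := Metric.infDist q Y with hm
  have hm1 : 2 * K + 5 ≤ m := by
    rw [hm, Metric.le_infDist hne]
    exact fun y hy => (hq y hy).le
  obtain ⟨u, hu, hum⟩ := (Metric.infDist_lt_iff hne).1 (show Metric.infDist q Y < m + 1 by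
    rw [← hm]; linarith)
  refine ⟨u, hu, fun y hy => ?_⟩
  by_contra hcon
  push Not at hcon
  have hyq : m ≤ dist y q := by rw [dist_comm]; exact Metric.infDist_le_dist_of_mem hy
  obtain ⟨γ, hγ⟩ := exists_isGeodesic u y
  set a := dist u y with ha
  have hay : dist y q < a := by rw [ha, dist_comm u y]; exact hcon
  set s := K + 3 with hs
  have hsa : s ∈ Icc 0 (dist u y) := ⟨by linarith, by linarith⟩
  obtain ⟨z, hz, hzs⟩ := hY u hu y hy γ hγ s hsa
  have h1 : m - K ≤ dist q (γ s) := by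
    have h2 := Metric.infDist_le_dist_of_mem (x := q) hz
    have h3 := dist_triangle q (γ s) z
    linarith
  have h2 := stewart (IsGeodesic.left hγ hsa) (IsGeodesic.right hγ hsa) q
  rw [← ha, dist_comm (γ s) q, dist_comm u q] at h2
  have hA0 : 0 < a := by linarith
  have hsh : 0 < sinh a := sinh_pos_iff.2 hA0
  set A := m - K with hA
  have hA5 : K + 5 ≤ A := by linarith
  have c1 : cosh A ≤ cosh (dist q (γ s)) := by
    rw [cosh_le_cosh, abs_of_nonneg (by linarith), abs_of_nonneg dist_nonneg]; exact h1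
  have c2 : cosh (dist q u) ≤ exp (K + 1) * cosh A := by
    refine le_trans ?_ (cosh_add_le (A := A) (c := K + 1) (by linarith))
    rw [cosh_le_cosh, abs_of_nonneg dist_nonneg, abs_of_nonneg (by linarith)]
    linarith
  have c3 : sinh (a - s) ≤ exp (-s) * sinh a := sinh_sub_le (by linarith)
  have c4 : cosh (dist y q) ≤ cosh a := by
    rw [cosh_le_cosh, abs_of_nonneg dist_nonneg, abs_of_nonneg hA0.le]; exact hay.le
  have c5 : cosh a ≤ 2 * sinh a := by
    rw [Real.cosh_eq, Real.sinh_eq]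
    have e1 : exp (-a) ≤ 1 := exp_le_one_iff.2 (by linarith)
    have e2 : a + 1 ≤ exp a := add_one_le_exp a
    linarith
  have hss : 0 ≤ sinh s := sinh_nonneg_iff.2 (by linarith)
  have hcA : 0 < cosh A := cosh_pos A
  have hsas : 0 ≤ sinh (a - s) := sinh_nonneg_iff.2 (by linarith [hsa.2])
  have d1 : sinh (a - s) * cosh (dist q u) ≤ exp (-2) * (sinh a * cosh A) := by
    calc sinh (a - s) * cosh (dist q u) ≤ (exp (-s) * sinh a) * (exp (K + 1) * cosh A) :=
          mul_le_mul c3 c2 (cosh_pos _).le (by positivity)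
      _ = exp (-2) * (sinh a * cosh A) := by
          have : exp (-s) * exp (K + 1) = exp (-2) := by rw [← exp_add, hs]; ring_nf
          rw [← this]; ring
  have d2 : sinh s * cosh (dist y q) ≤ sinh s * (2 * sinh a) :=
    mul_le_mul_of_nonneg_left (c4.trans c5) hss
  have d3 : sinh a * cosh A ≤ exp (-2) * (sinh a * cosh A) + sinh s * (2 * sinh a) := by
    have := mul_le_mul_of_nonneg_left c1 hsh.le
    linarith
  have d4 : cosh A ≤ exp (-2) * cosh A + 2 * sinh s := by
    have : sinh a * cosh A ≤ sinh a * (exp (-2) * cosh A + 2 * sinh s) := by linarith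
    exact le_of_mul_le_mul_left this hsh
  have d5 : exp (-2) ≤ (1 : ℝ) / 2 := by
    rw [exp_neg, one_div]
    refine inv_anti₀ two_pos ?_
    have := add_one_le_exp (2 : ℝ)
    linarith
  have d6 : cosh A ≤ 4 * sinh s := by nlinarith
  have d7 : 4 * sinh s < cosh A := by
    have e1 : cosh (s + 2) ≤ cosh A := by
      rw [cosh_le_cosh, abs_of_nonneg (by linarith), abs_of_nonneg (by linarith)]
      linarith
    refine lt_of_lt_of_le ?_ e1
    rw [Real.cosh_eq, Real.sinh_eq]
    have e2 : exp (s + 2) = exp s * exp 2 := exp_add s 2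
    have e3 : (4 : ℝ) < exp 2 := by
      have f1 := Real.quadratic_le_exp_of_nonneg (x := 2) (by norm_num)
      linarith
    have e4 := exp_pos s
    have e5 := exp_pos (-s)
    have e6 := exp_pos (-(s + 2))
    rw [e2]
    nlinarith
  linarith

/-- the closed convex hull: intersection of all the half-spaces that contain `Y` -/
def hull (Y : Set H3) : Set H3 :=
  {q | ∀ u v : H3, (∀ y ∈ Y, dist y u ≤ dist y v) → dist q u ≤ dist q v}

theorem subset_hull (Y : Set H3) : Y ⊆ hull Y := fun y hy _ _ h => h y hy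

theorem isClosed_hull (Y : Set H3) : IsClosed (hull Y) := by
  have : hull Y = ⋂ (u : H3) (v : H3) (_ : ∀ y ∈ Y, dist y u ≤ dist y v),
      {q | dist q u ≤ dist q v} := by
    ext q
    simp only [hull, mem_ofPred_eq, mem_iInter]
  rw [this]
  refine isClosed_iInter fun u => isClosed_iInter fun v => isClosed_iInter fun _ => ?_
  exact isClosed_le (by fun_prop) (by fun_prop)

theorem hull_convex (Y : Set H3) {x y : H3} (hx : x ∈ hull Y) (hy : y ∈ hull Y) {γ : ℝ → H3}
    (hγ : IsGeodesic γ x y) {s : ℝ} (hs : s ∈ Icc 0 (dist x y)) : γ s ∈ hull Y := by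
  intro u v h
  rcases (dist_nonneg (x := x) (y := y)).eq_or_lt with h0 | h0
  · have hs0 : s = 0 := le_antisymm (by rw [h0]; exact hs.2) hs.1
    rw [hs0, hγ.1]
    exact hx u v h
  · have h1 := stewart (IsGeodesic.left hγ hs) (IsGeodesic.right hγ hs) u
    have h2 := stewart (IsGeodesic.left hγ hs) (IsGeodesic.right hγ hs) v
    have hA : 0 < sinh (dist x y) := sinh_pos_iff.2 h0
    have hB : 0 ≤ sinh (dist x y - s) := sinh_nonneg_iff.2 (by linarith [hs.2])
    have hC : 0 ≤ sinh s := sinh_nonneg_iff.2 hs.1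
    have mono : ∀ {r t : ℝ}, 0 ≤ r → r ≤ t → cosh r ≤ cosh t := fun h3 h4 => by
      rw [cosh_le_cosh, abs_of_nonneg h3, abs_of_nonneg (h3.trans h4)]; exact h4
    have h3 := mul_le_mul_of_nonneg_left (mono dist_nonneg (hx u v h)) hB
    have h4 := mul_le_mul_of_nonneg_left (mono dist_nonneg (hy u v h)) hC
    have h5 : cosh (dist (γ s) u) ≤ cosh (dist (γ s) v) :=
      le_of_mul_le_mul_left (by rw [h1, h2]; linarith) hA
    rw [cosh_le_cosh, abs_of_nonneg dist_nonneg, abs_of_nonneg dist_nonneg] at h5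
    exact h5

theorem hull_bounded {Y : Set H3} {K : ℝ} (hK : 0 ≤ K) (hY : QC Y K) (hne : Y.Nonempty) {q : H3}
    (hq : q ∈ hull Y) : ∃ y ∈ Y, dist q y ≤ 2 * K + 5 := by
  by_contra hcon
  push Not at hcon
  obtain ⟨u, hu, h⟩ := exists_sep hK hY hne hcon
  have h1 := hq u q h
  rw [dist_self] at h1
  have h2 := hcon u hu
  linarith [dist_nonneg (x := q) (y := u)]

theorem hull_map {Y : Set H3} (g : H3 ≃ᵢ H3) (hg : ∀ y ∈ Y, g y ∈ Y) {q : H3} (hq : q ∈ hull Y) :
    g q ∈ hull Y := by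
  intro u v h
  have h1 : ∀ p w : H3, dist (g p) w = dist p (g.symm w) := fun p w => by
    rw [← g.dist_eq p (g.symm w), g.apply_symm_apply]
  rw [h1, h1]
  refine hq _ _ fun y hy => ?_
  rw [← h1, ← h1]
  exact h _ (hg y hy)

/-! ### closed convex subsets -/

/-- `C` contains the geodesics between its points -/
def IsConv (C : Set H3) : Prop :=
  ∀ x ∈ C, ∀ y ∈ C, ∀ γ : ℝ → H3, IsGeodesic γ x y → ∀ s ∈ Icc 0 (dist x y), γ s ∈ C

theorem coe_geod {C : Set H3} {x y : C} {γ : ℝ → C} (h : IsGeodesic γ x y) :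
    IsGeodesic (fun s => (γ s : H3)) (x : H3) (y : H3) :=
  ⟨congrArg Subtype.val h.1, congrArg Subtype.val h.2.1, h.2.2⟩

theorem exists_geod_sub {C : Set H3} (hC : IsConv C) (x y : C) :
    ∃ γ : ℝ → C, IsGeodesic γ x y := by
  classical
  obtain ⟨γ, hγ⟩ := exists_isGeodesic (x : H3) (y : H3)
  have h0 : (0 : ℝ) ∈ Icc 0 (dist (x : H3) y) := ⟨le_rfl, dist_nonneg⟩
  have h1 : dist (x : H3) y ∈ Icc 0 (dist (x : H3) y) := ⟨dist_nonneg, le_rfl⟩
  refine ⟨fun s => if hs : s ∈ Icc 0 (dist (x : H3) y) then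
    ⟨γ s, hC _ x.2 _ y.2 γ hγ s hs⟩ else x, ?_, ?_, ?_⟩
  · simp only [dif_pos h0]
    exact Subtype.ext hγ.1
  · rw [Subtype.dist_eq]
    simp only [dif_pos h1]
    exact Subtype.ext hγ.2.1
  · intro s hs t ht
    rw [Subtype.dist_eq] at hs ht
    simp only [dif_pos hs, dif_pos ht, Subtype.dist_eq]
    exact hγ.2.2 s hs t ht

theorem isCAT0_sub {C : Set H3} (hC : IsConv C) : IsCAT0 C where
  geod := exists_geod_sub hC
  comp x y z _ _ hα hβ x' y' z' h1 h2 h3 s hs t ht :=
    isCAT0_H3.comp x y z _ _ (coe_geod hα) (coe_geod hβ) x' y' z' h1 h2 h3 s hs t ht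

theorem isCATNegOne_sub {C : Set H3} (hC : IsConv C) : Vale.Agent.P172.H372.IsCATNegOne C where
  geod := exists_geod_sub hC
  comp x y z _ _ hα hβ x' y' z' α' β' hα' hβ' h1 h2 h3 s hs t ht :=
    isCATNegOne_H3.comp x y z _ _ (coe_geod hα) (coe_geod hβ) x' y' z' α' β' hα' hβ' h1 h2 h3
      s hs t ht

end Vale.Agent.P172.H983
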