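import Vale.Agent.P172.R2.H983.Core
import Vale.Agent.P172.R2.H983.Defs
import Vale.Agent.P198.H372.Final

/-!
# P172: quasiconvex subgroups and virtual retracts of groups with boundary a 2-sphere
-/

namespace Vale.Agent.P172.H983

open Real P198H P198H.H3 Set Vale.Agent.P198.H372 Vale.Agent.P172 Vale.Agent.P198.H

theorem finite_preimage {G H : Type} [Group G] [Group H] (φ : H →* G) (hφ : Finite φ.ker)
    {s : Set G} (hs : s.Finite) : (φ ⁻¹' s).Finite := by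
  refine Set.Finite.preimage' hs fun b _ => ?_
  rcases (φ ⁻¹' {b}).eq_empty_or_nonempty with h | ⟨h₀, hh⟩
  · rw [h]; exact Set.finite_empty
  · have h1 : (φ.ker : Set H).Finite := Set.toFinite _
    refine (h1.image fun k => h₀ * k).subset ?_
    intro h hb
    refine ⟨h₀⁻¹ * h, ?_, mul_inv_cancel_left _ _⟩
    have e1 : φ h₀ = b := hh
    have e2 : φ h = b := hb
    show h₀⁻¹ * h ∈ φ.ker
    rw [MonoidHom.mem_ker, map_mul, map_inv, e1, e2, inv_mul_cancel]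

theorem proper_comp {G H : Type} [Group G] [Group H] (φ : H →* G) (hφ : Finite φ.ker)
    {ρ : G →* (H3 ≃ᵢ H3)}
    (hp : ∀ K : Set H3, IsCompact K → {g : G | ((ρ g) '' K ∩ K).Nonempty}.Finite) :
    ∀ K : Set H3, IsCompact K → {h : H | (((ρ.comp φ) h) '' K ∩ K).Nonempty}.Finite :=
  fun K hK => finite_preimage φ hφ (hp K hK)

theorem finite_ker_of_injective {G H : Type} [Group G] [Group H] (φ : H →* G)
    (h : Function.Injective φ) : Finite φ.ker := by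
  rw [(MonoidHom.ker_eq_bot_iff φ).2 h]
  infer_instance

/-- a subgroup of finite index acts cocompactly -/
theorem cocompact_sub {G : Type} [Group G] {ρ : G →* (H3 ≃ᵢ H3)} (G₀ : Subgroup G)
    [G₀.FiniteIndex] (hc : ∃ K : Set H3, IsCompact K ∧ ⋃ g : G, (ρ g) '' K = Set.univ) :
    ∃ K : Set H3, IsCompact K ∧ ⋃ g : G₀, ((ρ.comp G₀.subtype) g) '' K = Set.univ := by
  obtain ⟨K, hK, hu⟩ := hc
  refine ⟨⋃ q : G ⧸ G₀, ρ (q.out)⁻¹ '' K, isCompact_iUnion fun q => hK.image (ρ _).continuous, ?_⟩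
  rw [eq_univ_iff_forall]
  intro y
  have hy : y ∈ ⋃ g : G, (ρ g) '' K := by rw [hu]; trivial
  obtain ⟨g, k, hk, rfl⟩ := mem_iUnion.1 hy
  set t : G := ((g⁻¹ : G) : G ⧸ G₀).out with ht
  have h1 : t⁻¹ * g⁻¹ ∈ G₀ := by
    rw [← QuotientGroup.eq, ht, QuotientGroup.out_eq']
  refine mem_iUnion.2 ⟨(⟨t⁻¹ * g⁻¹, h1⟩ : G₀)⁻¹, ρ t⁻¹ k,
    mem_iUnion.2 ⟨((g⁻¹ : G) : G ⧸ G₀), k, hk, rfl⟩, ?_⟩
  show ρ (t⁻¹ * g⁻¹)⁻¹ (ρ t⁻¹ k) = ρ g k
  rw [← rho_mul]
  congr 2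
  group

theorem wlen_image_le {G H : Type} [Group G] [Group H] [DecidableEq H] {S : Finset G}
    (hS : Subgroup.closure (S : Set G) = ⊤) (r : G →* H) (g : G) :
    wlen (S.image r) (r g) ≤ wlen S g := by
  obtain ⟨l, h1, h2, h3⟩ := exists_word hS g
  have h4 : (l.map r).prod = r g := by rw [← map_list_prod, h3]
  rw [← h4, ← h1, ← List.length_map (f := r)]
  refine wlen_le fun y hy => ?_
  obtain ⟨s, hs, rfl⟩ := List.mem_map.1 hy
  rcases h2 s hs with h | h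
  · exact Or.inl (Finset.mem_image_of_mem r h)
  · right
    rw [← map_inv]
    exact Finset.mem_image_of_mem r h

theorem closure_image {G H : Type} [Group G] [Group H] [DecidableEq H] {S : Finset G}
    (hS : Subgroup.closure (S : Set G) = ⊤) (r : G →* H) (hr : Function.Surjective r) :
    Subgroup.closure ((S.image r : Finset H) : Set H) = ⊤ := by
  rw [Finset.coe_image, ← MonoidHom.map_closure, hS, ← MonoidHom.range_eq_map,
    MonoidHom.range_eq_top.2 hr]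

theorem retract_case {G H : Type} [Group G] [Group H] {S : Finset G}
    (hS : Subgroup.closure (S : Set G) = ⊤) (ρ : G →* (H3 ≃ᵢ H3)) (x : H3)
    (hp : ∀ K : Set H3, IsCompact K → {g : G | ((ρ g) '' K ∩ K).Nonempty}.Finite)
    (hc : ∃ K : Set H3, IsCompact K ∧ ⋃ g : G, (ρ g) '' K = Set.univ)
    (hH : IsVirtualRetract H G) :
    ∃ σ : H →* (H3 ≃ᵢ H3),
      (∀ K : Set H3, IsCompact K → {h : H | ((σ h) '' K ∩ K).Nonempty}.Finite) ∧
      ∃ K : ℝ, 0 ≤ K ∧ QC (range fun h => σ h x) K := by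
  classical
  obtain ⟨G₀, i, r, hf, hir⟩ := hH
  have hfg : Group.FG G := ⟨⟨S, hS⟩⟩
  obtain ⟨⟨S₀, hS₀⟩⟩ : Group.FG G₀ := Subgroup.fg_of_index_ne_zero G₀
  set ρ₀ : G₀ →* (H3 ≃ᵢ H3) := ρ.comp G₀.subtype with hρ₀
  have hp₀ := proper_comp G₀.subtype (finite_ker_of_injective _ G₀.subtype_injective) hp
  have hc₀ := cocompact_sub (ρ := ρ) G₀ hc
  obtain ⟨L, hL0, hL⟩ := exists_low hS₀ hp₀ hc₀ x
  have hi : Function.Injective i := fun a b h => by rw [← hir a, ← hir b, h]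
  have hr : Function.Surjective r := fun h => ⟨i h, hir h⟩
  refine ⟨ρ₀.comp i, proper_comp i (finite_ker_of_injective _ hi) hp₀,
    qc_of_qi (closure_image hS₀ r hr) (ρ₀.comp i) x (L := L) fun h k => ?_⟩
  refine le_trans ?_ (hL (i h) (i k))
  have h1 := wlen_image_le hS₀ r ((i h)⁻¹ * i k)
  rw [map_mul, map_inv, hir, hir] at h1
  exact_mod_cast h1

theorem undistorted_case {G H : Type} [Group G] [Group H] (ρ : G →* (H3 ≃ᵢ H3)) (x : H3)
    (hp : ∀ K : Set H3, IsCompact K → {g : G | ((ρ g) '' K ∩ K).Nonempty}.Finite)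
    (hc : ∃ K : Set H3, IsCompact K ∧ ⋃ g : G, (ρ g) '' K = Set.univ)
    (hH : IsUndistortedIn H G) :
    ∃ σ : H →* (H3 ≃ᵢ H3),
      (∀ K : Set H3, IsCompact K → {h : H | ((σ h) '' K ∩ K).Nonempty}.Finite) ∧
      ∃ K : ℝ, 0 ≤ K ∧ QC (range fun h => σ h x) K := by
  obtain ⟨T, S, φ, L, hT, hS, hL⟩ := hH
  obtain ⟨M, hM0, hM⟩ := exists_low hS hp hc x
  have hL' : ∀ h k : H, (wdist T h k : ℝ) ≤ max L 0 * wdist S (φ h) (φ k) + max L 0 := by
    intro h k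
    have h1 := hL h k
    rw [dist_eq hT, dist_eq hS] at h1
    refine h1.trans (add_le_add (mul_le_mul_of_nonneg_right (le_max_left _ _)
      (Nat.cast_nonneg _)) (le_max_left _ _))
  set A := max L 0 with hA
  have hA0 : 0 ≤ A := le_max_right _ _
  have hker : Finite φ.ker := by
    have h1 := finite_ball hT ⌊A⌋₊
    refine (h1.subset fun h (hh : h ∈ (φ.ker : Set H)) => ?_).to_subtype
    have h2 := hL' 1 h
    have h3 : φ h = 1 := hh
    rw [h3, map_one, wdist_self, wdist_one_left, Nat.cast_zero, mul_zero, zero_add] at h2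
    exact Nat.le_floor h2
  refine ⟨ρ.comp φ, proper_comp φ hker hp,
    qc_of_qi hT (ρ.comp φ) x (L := A * M + A) fun h k => ?_⟩
  have h1 := hL' h k
  have h2 := mul_le_mul_of_nonneg_left (hM (φ h) (φ k)) hA0
  have h3 : 0 ≤ A * dist (ρ (φ h) x) (ρ (φ k) x) := mul_nonneg hA0 dist_nonneg
  show (wdist T h k : ℝ) ≤ (A * M + A) * dist (ρ (φ h) x) (ρ (φ k) x) + (A * M + A)
  linarith

theorem quasiconvex_case {G H : Type} [Group G] [Group H] (ρ : G →* (H3 ≃ᵢ H3)) (x : H3)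
    (hp : ∀ K : Set H3, IsCompact K → {g : G | ((ρ g) '' K ∩ K).Nonempty}.Finite)
    (hc : ∃ K : Set H3, IsCompact K ∧ ⋃ g : G, (ρ g) '' K = Set.univ)
    (hH : IsQuasiconvexIn H G) :
    ∃ σ : H →* (H3 ≃ᵢ H3),
      (∀ K : Set H3, IsCompact K → {h : H | ((σ h) '' K ∩ K).Nonempty}.Finite) ∧
      ∃ K : ℝ, 0 ≤ K ∧ QC (range fun h => σ h x) K := by
  obtain ⟨S, φ, hS, hker, K, hK⟩ := hH
  obtain ⟨M, hM0, hM⟩ := exists_low hS hp hc x
  refine ⟨ρ.comp φ, proper_comp φ hker hp,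
    qc_of_qc hS ρ x hM φ (K := K) (Nat.cast_nonneg _) fun h k a n ha i hi => ?_⟩
  obtain ⟨p, hp1, hp2⟩ := walk_of_geod hS ha
  obtain ⟨_, ⟨l, rfl⟩, hw⟩ := hK _ _ p ⟨h, rfl⟩ ⟨k, rfl⟩ hp1 (a i) ((hp2 _).2 ⟨i, hi, rfl⟩)
  refine ⟨l, ?_⟩
  rw [dist_eq hS] at hw
  exact_mod_cast hw

/-- **Groups with boundary a 2-sphere, and subgroups.** -/
theorem main (G : Type) [Group G] (hG : Vale.Agent.P172.H372.IsHyperbolicWithSphereBoundary G)
    (H : Type) [Group H]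
    (hH : IsQuasiconvexIn H G ∨ IsUndistortedIn H G ∨ IsVirtualRetract H G) :
    ∃ (X : Type) (_ : MetricSpace X) (_ : MulAction H X), Nonempty X ∧ ProperSpace X ∧
      IsIsometricSMul H X ∧ IsCAT0 X ∧ Vale.Agent.P172.H372.IsCATNegOne X ∧
      Vale.Agent.P172.H372.IsGeometric H X := by
  obtain ⟨S, hS, ⟨δ, hδ⟩, hb⟩ := hG
  obtain ⟨ρ, ⟨-, h2, h3⟩, -⟩ := Vale.Agent.P198.H372.final G S hS δ hδ hb
  have key : ∃ σ : H →* (H3 ≃ᵢ H3),
      (∀ K : Set H3, IsCompact K → {h : H | ((σ h) '' K ∩ K).Nonempty}.Finite) ∧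
      ∃ K : ℝ, 0 ≤ K ∧ QC (range fun h => σ h ⟨0, 1, one_pos⟩) K := by
    rcases hH with h | h | h
    · exact quasiconvex_case ρ _ h2 h3 h
    · exact undistorted_case ρ _ h2 h3 h
    · exact retract_case hS ρ _ h2 h3 h
  obtain ⟨σ, hσ, K, hK, hq⟩ := key
  exact core σ _ hσ hK hq

end Vale.Agent.P172.H983
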